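import Crest.Agent.X212.Cg28.Defs

/-!
# X212 / Int17 (helper17): integrals over finite covers
-/

set_option autoImplicit false
set_option linter.unusedSectionVars false

open Set Filter Topology Function Module MeasureTheory
open scoped ContDiff Manifold ENNReal
open Crest.Agent.R208.F Crest.Agent.X212.Dr59 Crest.Agent.X212.Int54 Crest.Agent.X212.Orx52

noncomputable section

namespace Crest.Agent.X212.Int17

/-- a countable measurable partition into pieces on which a map is injective -/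
theorem exists_part {N M : Type*} [TopologicalSpace N] [SecondCountableTopology N] [MeasurableSpace N]
    [BorelSpace N] {f : N → M} {W : Set N} (hW : MeasurableSet W)
    (h : ∀ y ∈ W, ∃ V, IsOpen V ∧ y ∈ V ∧ InjOn f V) :
    ∃ D : ℕ → Set N, (∀ n, MeasurableSet (D n)) ∧ Pairwise (Disjoint on D) ∧ ⋃ n, D n = W ∧
      ∀ n, InjOn f (D n) := by
  obtain ⟨T, hT, hS, hU⟩ := TopologicalSpace.isOpen_sUnion_countable {V | IsOpen V ∧ InjOn f V} fun _ h => h.1
  obtain ⟨u, hu⟩ := (hT.insert ∅).exists_eq_range (insert_nonempty _ _)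
  have h1 : ∀ n, IsOpen (u n) ∧ InjOn f (u n) := fun n => by
    rcases (hu ▸ mem_range_self n : u n ∈ insert ∅ T) with e | e
    · rw [e]; exact ⟨isOpen_empty, injOn_empty _⟩
    · exact hS e
  refine ⟨fun n => disjointed u n ∩ W, fun n => (MeasurableSet.disjointed (fun n => (h1 n).1.measurableSet) n).inter hW,
    fun n m e => (disjoint_disjointed u e).mono inter_subset_left inter_subset_left, ?_,
    fun n => (h1 n).2.mono fun _ hy => disjointed_subset u n hy.1⟩
  rw [← iUnion_inter, iUnion_disjointed, inter_eq_right]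
  intro y hy
  obtain ⟨V, a, b, c⟩ := h y hy
  obtain ⟨V', d, e⟩ : y ∈ ⋃₀ T := hU ▸ ⟨V, ⟨a, c⟩, b⟩
  obtain ⟨n, rfl⟩ : V' ∈ range u := hu ▸ mem_insert_of_mem _ d
  exact mem_iUnion.2 ⟨n, e⟩

theorem count {N M : Type*} {f : N → M} {W : Set N} {D : ℕ → Set N} (h2 : Pairwise (Disjoint on D))
    (h3 : ⋃ n, D n = W) (h4 : ∀ n, InjOn f (D n)) (x : M) :
    ∑' n, (f '' D n).indicator (1 : M → ℝ≥0∞) x = (W ∩ f ⁻¹' {x}).encard := by
  have e : ∀ n, (f '' D n).indicator (1 : M → ℝ≥0∞) x = {n | x ∈ f '' D n}.indicator (fun _ => 1) n := fun n => by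
    by_cases h : x ∈ f '' D n
    · rw [indicator_of_mem h, indicator_of_mem (show n ∈ {n | x ∈ f '' D n} from h)]; rfl
    · rw [indicator_of_notMem h, indicator_of_notMem (show n ∉ {n | x ∈ f '' D n} from h)]
  rw [tsum_congr e, ← tsum_subtype, ENNReal.tsum_set_one]
  have hm : ∀ y : (W ∩ f ⁻¹' {x} : Set N), ∃ n, y.1 ∈ D n := fun y => mem_iUnion.1 (h3 ▸ y.2.1)
  choose g hg using hm
  refine congrArg _ (encard_congr (Equiv.ofBijective (fun y => ⟨g y, y.1, hg y, y.2.2⟩) ⟨fun y z k => ?_, ?_⟩).symm)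
  · have k' : g y = g z := congrArg Subtype.val k
    exact Subtype.ext (h4 _ (hg y) (k' ▸ hg z) (y.2.2.trans z.2.2.symm))
  · rintro ⟨n, y, hy, e⟩
    refine ⟨⟨y, h3 ▸ mem_iUnion.2 ⟨n, hy⟩, e⟩, Subtype.ext ?_⟩
    by_contra k
    exact disjoint_left.1 (h2 k) (hg _) hy

variable {E : Type*} [NormedAddCommGroup E] [NormedSpace ℝ E] [FiniteDimensional ℝ E]
  [MeasurableSpace E] [BorelSpace E]
  {H : Type*} [TopologicalSpace H] {I : ModelWithCorners ℝ E H} [I.Boundaryless]
  {M : Type*} [TopologicalSpace M] [ChartedSpace H M] [IsManifold I ∞ M]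
  [MeasurableSpace M] [BorelSpace M] [SecondCountableTopology M]
  {E' : Type*} [NormedAddCommGroup E'] [NormedSpace ℝ E'] [FiniteDimensional ℝ E']
  [MeasurableSpace E'] [BorelSpace E']
  {H' : Type*} [TopologicalSpace H'] {J : ModelWithCorners ℝ E' H'} [J.Boundaryless]
  {N : Type*} [TopologicalSpace N] [ChartedSpace H' N] [IsManifold J ∞ N]
  [MeasurableSpace N] [BorelSpace N] [SecondCountableTopology N]
  {f : N → M} {W : Set N} {U : Set M} {p : ℕ}

/-- the push-forward of the pulled back measure under a `p`-fold cover -/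
theorem map_cover (h : finrank ℝ E = finrank ℝ E') (hp : p ≠ 0) (hW : MeasurableSet W) (hU : MeasurableSet U)
    (hf : ∀ y ∈ W, IsLocalDiffeomorphAt J I ∞ f y) (hm : MapsTo f W U)
    (hc : ∀ x ∈ U, (W ∩ f ⁻¹' {x}).ncard = p) (o : M → Ext E) :
    ((dens J (pm J I f o)).restrict W).map f = (p : ℝ≥0∞) • (dens I o).restrict U := by
  obtain ⟨D, h1, h2, h3, h4⟩ := exists_part (f := f) hW fun y hy => by
    obtain ⟨Φ, a, b⟩ := hf y hy
    exact ⟨Φ.source, Φ.open_source, a, Φ.toPartialEquiv.injOn.congr b.symm⟩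
  have hD : ∀ n, D n ⊆ W := fun n => h3 ▸ subset_iUnion D n
  have hd : ∀ y ∈ W, MDifferentiableAt J I f y := fun y hy => (hf y hy).mdifferentiableAt (by simp)
  have hc' : ContinuousOn f W := fun w hw => (hd w hw).continuousAt.continuousWithinAt
  have h5 : ∀ n, MeasurableSet (f '' D n) := fun n => ms_image (h1 n) (fun w hw => hd w (hD n hw)) (h4 n)
  refine Measure.ext fun t ht => ?_
  have h6 : ∀ n, MeasurableSet (D n ∩ f ⁻¹' t) := fun n => ms_inter (hc'.mono (hD n)) (h1 n) ht
  rw [Measure.map_apply_of_aemeasurable (hc'.aemeasurable hW) ht, Measure.restrict_apply' hW, inter_comm, ← h3,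
    iUnion_inter, measure_iUnion (fun n m e => (h2 e).mono inter_subset_left inter_subset_left) h6]
  have h7 : ∀ n, dens J (pm J I f o) (D n ∩ f ⁻¹' t) = ∫⁻ x in t, (f '' D n).indicator 1 x ∂dens I o := fun n => by
    rw [← dens_image h o (h6 n) (fun w hw => hd w (hD n hw.1)) ((h4 n).mono inter_subset_left),
      image_inter_preimage, lintegral_indicator_one (h5 n), Measure.restrict_apply (h5 n)]
  rw [tsum_congr h7, ← lintegral_tsum fun n => (measurable_one.indicator (h5 n)).aemeasurable]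
  have h8 : ∀ x, ∑' n, (f '' D n).indicator (1 : M → ℝ≥0∞) x = p * U.indicator 1 x := fun x => by
    rw [count h2 h3 h4]
    by_cases hx : x ∈ U
    · rw [indicator_of_mem hx, ← hc x hx, ← (finite_of_ncard_ne_zero (hc x hx ▸ hp)).cast_ncard_eq]
      simp
    · rw [indicator_of_notMem hx, show W ∩ f ⁻¹' {x} = ∅ from
        eq_empty_of_forall_notMem fun y hy => hx (hy.2 ▸ hm hy.1)]
      simp
  rw [lintegral_congr h8, lintegral_const_mul _ (measurable_one.indicator hU), lintegral_indicator_one hU,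
    Measure.smul_apply, Measure.restrict_apply hU, Measure.restrict_apply ht, inter_comm, smul_eq_mul]

/-- integrals over a `p`-fold cover -/
theorem integOn_cover (h : finrank ℝ E = finrank ℝ E') (hp : p ≠ 0) (hW : MeasurableSet W) (hU : MeasurableSet U)
    (hf : ∀ y ∈ W, IsLocalDiffeomorphAt J I ∞ f y) (hm : MapsTo f W U)
    (hc : ∀ x ∈ U, (W ∩ f ⁻¹' {x}).ncard = p) {o : M → Ext E} {o' : N → Ext E'} (ho : Ori I o) (ho' : Ori J o')
    (hs : Pos J I f W o' o) {a : M → Ext E} (ha : ContinuousOn (rat o a) U) :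
    integOn J o' (pm J I f a) W = p * integOn I o a U := by
  have hc' : ContinuousOn f W := fun w hw => (hf w hw).contMDiffAt.continuousAt.continuousWithinAt
  rw [← ho'.integOn_ori' hW (fun w hw => (contMDiffAt_rat le_rfl (ho'.sm w) (ho'.ne w)
    ((ho.sm _).pm (hf w hw).contMDiffAt)).continuousAt.continuousWithinAt) (SameOn.symm hs), integOn,
    setIntegral_congr_fun hW fun w hw => rat_pm h (jac_of_ld (hf w hw)) o a,
    ← integral_map (hc'.aemeasurable hW), map_cover h hp hW hU hf hm hc, integral_smul_measure, integOn]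
  · simp
  · rw [map_cover h hp hW hU hf hm hc]
    exact (ha.aestronglyMeasurable hU).smul_measure _

/-- INT -/
theorem int : Cg28.IntStmt := fun _ Z _ _ _ _ hp hW hU hf hm hc hs _ ha =>
  integOn_cover rfl hp hW.measurableSet hU.measurableSet hf hm hc Z.ori (Cg28.C4.ori _) hs
    (Z.ori.continuous_rat fun x => (ha x trivial).of_le (by simp)).continuousOn

end Crest.Agent.X212.Int17
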